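import Vale.Agent.P216GM.Atl
import Vale.Agent.P216RD.Mod
import Vale.Agent.P216D.ModM
import Vale.Agent.P216LS.PoU

/-! # The global frame model of a family of metrics on a manifold -/

open scoped Manifold ContDiff Topology
open Set Filter

set_option linter.unusedSimpArgs false
set_option maxSynthPendingDepth 3

noncomputable section

namespace Vale.Agent.P216GM

open Vale.Agent.P216R hiding RF
open Vale.Agent.P216D Vale.Agent.P216D.Loc
open Vale.Agent.P216RD (FP mm Mod MODEL GM)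
open Vale.Agent.P216ST (SmF Sm0)
open Vale.Agent.P216K (df)

variable {M : Type} [TopologicalSpace M] [ChartedSpace E3 M] [IsManifold 𝓘(ℝ, E3) ∞ M]
  {g : ℝ → Ten E3 M} {I : Set ℝ} {U : Set M}

omit [IsManifold 𝓘(ℝ, E3) ∞ M] [TopologicalSpace M] [ChartedSpace E3 M] in
lemma fp_ext {p q : FP g I U} (h1 : p.t = q.t) (h2 : p.x = q.x) (h3 : p.e = q.e) : p = q := by
  cases p; cases q; cases h1; cases h2; cases h3; rfl

lemma df_eq {φ : M → ℝ} {y : M} (h : DifferentiableAt ℝ (rd E3 φ y) (pt E3 y)) (v : E3) :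
    df φ y v = fderiv ℝ (rd E3 φ y) (pt E3 y) v := by
  have h1 : HasMFDerivAt 𝓘(ℝ, E3) 𝓘(ℝ, ℝ) (rd E3 φ y ∘ chartAt E3 y) y _ :=
    HasMFDerivAt.comp y (g := rd E3 φ y) h.hasFDerivAt.hasMFDerivAt
      (sm_chart (mem_chart_source E3 y)).md.hasMFDerivAt
  rw [df, ← (P216LS.rd_comp_chart φ (mem_chart_source E3 y)).mfderiv_eq, h1.mfderiv]
  exact congrArg _ (congrArg (fun l => l v) (md_chart_self y))

lemma md_tr {a b : M} {y : E3} (ha : y ∈ (chartAt E3 a).target)
    (hb : (chartAt E3 a).symm y ∈ (chartAt E3 b).source) (v : E3) :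
    md E3 (chartAt E3 b).symm (chartAt E3 b ((chartAt E3 a).symm y))
      (fderiv ℝ (chartAt E3 b ∘ (chartAt E3 a).symm) y v) = md E3 (chartAt E3 a).symm y v := by
  have h1 := md_comp (k := chartAt E3 b ∘ (chartAt E3 a).symm) (x := y)
    (sm_symm ((chartAt E3 b).map_source hb)).md (SM.md ((sm_chart hb).comp y (sm_symm ha)))
  rw [md_congr (f' := (chartAt E3 a).symm), md_model] at h1
  · exact (congrArg (fun l => l v) h1).symm
  · filter_upwards [tendsto_symm ha ((chartAt E3 b).open_source.mem_nhds hb)] with z hz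
    exact (chartAt E3 b).left_inv hz

lemma md_sc {a y : M} (ha : y ∈ (chartAt E3 a).source) (v : E3) :
    md E3 (chartAt E3 a).symm (chartAt E3 a y) (md E3 (chartAt E3 a) y v) = v := by
  have h1 := md_comp (k := chartAt E3 a) (x := y) (sm_symm ((chartAt E3 a).map_source ha)).md
    (sm_chart ha).md
  rw [md_congr (f' := id), md_id] at h1
  · exact (congrArg (fun l => l v) h1).symm
  · filter_upwards [(chartAt E3 a).open_source.mem_nhds ha] with z hz
    exact (chartAt E3 a).left_inv hz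

lemma md_cs {a : M} {y : E3} (ha : y ∈ (chartAt E3 a).target) (v : E3) :
    md E3 (chartAt E3 a) ((chartAt E3 a).symm y) (md E3 (chartAt E3 a).symm y v) = v := by
  have h1 := md_comp (k := (chartAt E3 a).symm) (x := y)
    (sm_chart ((chartAt E3 a).map_target ha)).md (sm_symm ha).md
  rw [md_congr (f' := id), md_id] at h1
  · exact (congrArg (fun l => l v) h1).symm
  · filter_upwards [(chartAt E3 a).open_target.mem_nhds ha] with z hz
    exact (chartAt E3 a).right_inv hz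

variable (h : Fam g I U) (hI : Iv I)

/-- the frame on the manifold given by a frame in the chart at `a` -/
def jj (a : M) (q : (cl h hI a).O) : FP g I U :=
  ⟨t q, (chartAt E3 a).symm (x q), fun b => md E3 (chartAt E3 a).symm (x q) (e q b), t_mem q,
    (x_mem q).2, fun b c => e_on q b c⟩

/-- a frame in its own chart -/
def kk (p : FP g I U) : (cl h hI p.x).O := fp h hI p.ht p.hx p.on

lemma jj_kk (p : FP g I U) : jj h hI p.x (kk h hI p) = p :=
  fp_ext rfl (symm_pt _) (funext fun b => congrArg (fun l => l (p.e b)) (md_symm_pt p.x))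

variable {h hI}

lemma exists_jj (p : FP g I U) {a : M} (ha : p.x ∈ (chartAt E3 a).source) :
    ∃ q, jj h hI a q = p ∧ x q = chartAt E3 a p.x :=
  ⟨mkF (L := cl h hI a) p.ht (mem_dom ha p.hx) (f := fun b => md E3 (chartAt E3 a) p.x (p.e b))
    fun b c => (congrArg (fun B : Bi => B (p.e b) (p.e c)) (comap_chart (g p.t) ha)).trans
      (p.on b c), fp_ext rfl ((chartAt E3 a).left_inv ha) (funext fun _ => md_sc ha _), rfl⟩

lemma tend_x {a : M} (q : (cl h hI a).O) :
    Tendsto (fun z => (jj h hI a z).x) (𝓝 q) (𝓝 (jj h hI a q).x) :=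
  (tendsto_symm (x_mem q).1).comp
    (continuous_snd.comp (continuous_fst.comp continuous_subtype_val)).continuousAt

lemma jj_tr {a b : M} (q : (cl h hI a).O) (r : (cl h hI b).O) (H : jj h hI a q = jj h hI b r)
    (f : FP g I U → ℝ) (v : FF → ℝ) (hv : Rep (cl h hI b).R (fun z => f (jj h hI b z)) r v) :
    ∃ u, Rep (cl h hI a).R (fun z => f (jj h hI a z)) q u ∧ Agr q u r v := by
  have h1 : (chartAt E3 a).symm (x q) = (chartAt E3 b).symm (x r) := congrArg FP.x H
  have h2 : (chartAt E3 a).symm (x q) ∈ (chartAt E3 b).source :=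
    h1 ▸ (chartAt E3 b).map_target (x_mem r).1
  have h3 : x r = chartAt E3 b ((chartAt E3 a).symm (x q)) := by
    rw [h1, (chartAt E3 b).right_inv (x_mem r).1]
  refine ⟨_, TI.rep (L' := cl h hI b) (q := q) (τ := chartAt E3 b ∘ (chartAt E3 a).symm)
    ⟨Subset.rfl, ?_⟩
    (Prod.ext (Prod.ext (congrArg FP.t H).symm h3) (funext fun c => ?_)) ?_ hv⟩
  · filter_upwards [(isOpen_dom a h.isOpen).mem_nhds (x_mem q),
      tendsto_symm (x_mem q).1 ((chartAt E3 b).open_source.mem_nhds h2)] with z z1 z2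
    exact ⟨mem_dom z2 z1.2, contDiffAt_chart_comp (sm_symm z1.1) z2,
      fun s _ => comap_eq (g s) (sm_symm z1.1).md z2⟩
  · refine (ld_symm b).inj _ (x_mem r).1 ((congrFun (congrArg FP.e H) c).symm.trans ?_)
    rw [h3]
    exact (md_tr (x_mem q).1 h2 _).symm
  · filter_upwards [tend_x q ((chartAt E3 b).open_source.mem_nhds h2)] with z z1 w e
    obtain ⟨w, hw⟩ := w
    obtain rfl : w = _ := e
    exact congrArg f (fp_ext rfl ((chartAt E3 b).left_inv z1).symm
      (funext fun c => (md_tr (x_mem z).1 z1 _).symm))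

lemma jj_germ (hH : Hs U) (p : FP g I U) (l : FF →L[ℝ] ℝ) : ∃ f : FP g I U → ℝ,
    (∀ p', ∃ a q u, jj h hI a q = p' ∧ Rep (cl h hI a).R (fun z => f (jj h hI a z)) q u) ∧
      ∀ᶠ q in 𝓝 (kk h hI p), f (jj h hI _ q) = l q := by
  obtain ⟨β, K, h1, h2, h3, -, h4, h5⟩ := P216LS.exists_bump_at (E := E3) h.isOpen hH p.hx
    ((chartAt E3 p.x).open_source.mem_nhds (mem_chart_source E3 p.x))
  obtain ⟨κ, hκ⟩ : ∃ κ : FP g I U → FF, ∀ z, κ (jj h hI p.x z) = z :=
    ⟨fun r => ((r.t, chartAt E3 p.x r.x), fun b => md E3 (chartAt E3 p.x) r.x (r.e b)), fun z =>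
      Prod.ext (Prod.ext rfl ((chartAt E3 p.x).right_inv (x_mem z).1))
        (funext fun _ => md_cs (x_mem z).1 _)⟩
  refine ⟨fun r => β r.x * l (κ r), fun r => ?_, ?_⟩
  · by_cases hr : r.x ∈ K
    · obtain ⟨q, rfl, -⟩ := exists_jj (h := h) (hI := hI) r (h2 hr).2
      refine ⟨_, q, fun z => (β ∘ (chartAt E3 p.x).symm) z.1.2 * l z, rfl,
        ContDiffAt.contDiffWithinAt (ContDiffAt.mul ?_ l.contDiff.contDiffAt),
        .of_forall fun z => congrArg (fun w => _ * l w) (hκ z)⟩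
      exact ContDiffAt.comp q.1 (g := β ∘ (chartAt E3 p.x).symm)
        ((h3 _ (x_mem q).2).comp_ld (sm_symm (x_mem q).1)) (by fun_prop)
    · refine ⟨_, kk h hI r, fun _ => 0, jj_kk h hI r, contDiffWithinAt_const, ?_⟩
      filter_upwards [tend_x (kk h hI r) ((hH.isOpen_diff h.isOpen h1
        (h2.trans inter_subset_left)).mem_nhds (by rw [jj_kk]; exact ⟨r.hx, hr⟩))] with z hz
      rw [h4 _ hz.2, zero_mul]
  · rw [← congrArg FP.x (jj_kk h hI p)] at h5
    filter_upwards [(tend_x (kk h hI p)).eventually h5] with z hz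
    rw [hz, hκ, Pi.one_apply, one_mul]

variable (h hI) (hH : Hs U)

/-- the atlas of a family of metrics -/
@[reducible] def atl : Atl (FP g I U) M I where
  L := cl h hI
  j := jj h hI
  c := FP.x
  k := kk h hI
  τ := FP.t
  hI _ := rfl
  jk := jj_kk h hI
  tj _ _ := rfl
  tr := jj_tr
  germ := jj_germ hH

lemma atl_cpt (hc : IsCompact U) : (atl h hI hH).Cpt := fun s r hs => by
  choose! δ h0 h1 using fun y (hy : y ∈ U) => Metric.nhds_basis_closedBall.mem_iff.1
    ((isOpen_dom (E := E3) y h.isOpen).mem_nhds (pt_mem_dom hy))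
  obtain ⟨T, h2, h3⟩ := hc.elim_nhds_subcover (fun y => (chartAt E3 y).source ∩
    chartAt E3 y ⁻¹' Metric.closedBall (pt E3 y) (δ y)) fun y hy => inter_mem
      ((chartAt E3 y).open_source.mem_nhds (mem_chart_source E3 y))
      ((chartAt E3 y).continuousAt (mem_chart_source E3 y) (Metric.closedBall_mem_nhds _ (h0 y hy)))
  refine ⟨T, fun a => {q | q.1.1 ∈ Icc s r ×ˢ Metric.closedBall (pt E3 a) (δ a)}, fun a ha =>
    ⟨isCompact_frames (isCompact_Icc.prod (isCompact_closedBall _ _))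
      (prod_mono hs (h1 a (h2 a ha))), fun q hq => hq.1⟩, fun p hp => ?_⟩
  obtain ⟨a, ha, h4⟩ := mem_iUnion₂.1 (h3 p.hx)
  obtain ⟨q, rfl, h5⟩ := exists_jj (h := h) (hI := hI) p h4.1
  exact ⟨a, ha, q, ⟨hp, (h5 ▸ h4.2 : x q ∈ _)⟩, rfl⟩

/-- the ring of smooth functions of frames -/
abbrev GA : Type := (atl h hI hH).A

/-- the global calculus -/
abbrev gfl : Fl (GA h hI hH) := (atl h hI hH).fl

/-- evaluation at a frame -/
abbrev gev (p : FP g I U) : GA h hI hH →ₐ[ℝ] ℝ := (atl h hI hH).ev p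

/-- the global calculus of a Ricci flow -/
def grf (h : P216R.RF g I U) (hI : Iv I) (hH : Hs U) : RF (GA h.toFam hI hH) :=
  (atl h.toFam hI hH).rf fun a => h.co a

lemma grf_toFl (h : P216R.RF g I U) (hI : Iv I) (hH : Hs U) :
    (grf h hI hH).toFl = gfl h.toFam hI hH := rfl

/-- a smooth function on space-time as an element of the global ring -/
def gs (u : ℝ → M → ℝ) (hu : SmF E3 u I U) : GA h hI hH :=
  Atl.mk' (fun p => u p.t p.x) (fun a => sm h hI a u hu) fun _ _ => rfl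

variable {h hI hH} {u v : ℝ → M → ℝ} (p : FP g I U)

lemma res_gs (hu : SmF E3 u I U) (a : M) :
    (atl h hI hH).res a (gs h hI hH u hu) = sm h hI a u hu := Atl.res_mk' _ _ _ _

lemma gev_k (f : GA h hI hH) :
    gev h hI hH p f = ev (fp h hI p.ht p.hx p.on) ((atl h hI hH).res p.x f) := Atl.ev_k p f

lemma ev_gs (hu : SmF E3 u I U) : gev h hI hH p (gs h hI hH u hu) = u p.t p.x := rfl

lemma inv_gs (hu : SmF E3 u I U) : (gfl h hI hH).Inv (gs h hI hH u hu) := fun a =>
  Atl.ext_res fun i => (Atl.res_V i a _).trans (by rw [res_gs, map_zero]; exact inv_sm h hI i hu a)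

lemma gs_Dt (hu : SmF E3 u I U) : HasDerivWithinAt (fun s => u s p.x)
    (gev h hI hH p ((gfl h hI hH).Dt (gs h hI hH u hu))) I p.t := by
  rw [Atl.evT, res_gs]; exact fp_Dt (hs := p.ht) (hy := p.hx) (hf := p.on) hu

lemma gs_D (hu : SmF E3 u I U) (a : Fin 3) :
    gev h hI hH p ((gfl h hI hH).D a (gs h hI hH u hu)) = df (u p.t) p.x (p.e a) := by
  rw [Atl.evD, res_gs, df_eq (((smF_ps h.isOpen hu p.ht (pt_mem_dom p.hx)).contDiffAt
    p.ht).differentiableAt (by simp))]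
  exact fp_D (hs := p.ht) (hy := p.hx) (hf := p.on) hu a

lemma gs_D' (hu : SmF E3 u I U) (a : Fin 3) : gev h hI hH p ((gfl h hI hH).D a (gs h hI hH u hu)) =
    g p.t p.x (grad (g p.t) (u p.t) p.x) (p.e a) := by
  rw [Atl.evD, res_gs]; exact fp_D' (hs := p.ht) (hy := p.hx) (hf := p.on) hu a

lemma gs_hess (hu : SmF E3 u I U) (a b : Fin 3) :
    gev h hI hH p ((gfl h hI hH).D a ((gfl h hI hH).D b (gs h hI hH u hu))) =
      hess (g p.t) (u p.t) p.x (p.e a) (p.e b) := by
  rw [Atl.evD, ((atl h hI hH).hom _).D, res_gs]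
  exact fp_hess (hs := p.ht) (hy := p.hx) (hf := p.on) hu a b

lemma gs_Lap (hu : SmF E3 u I U) :
    gev h hI hH p ((gfl h hI hH).Lap (gs h hI hH u hu)) = lap (g p.t) (u p.t) p.x := by
  rw [gev_k, ((atl h hI hH).hom _).Lap, res_gs]; exact fp_Lap hu

lemma gs_ip (hu : SmF E3 u I U) (hv : SmF E3 v I U) :
    gev h hI hH p ((gfl h hI hH).ip (gs h hI hH u hu) (gs h hI hH v hv)) =
      gam (g p.t) (u p.t) (v p.t) p.x := by
  rw [gev_k, ((atl h hI hH).hom _).ip, res_gs, res_gs]; exact fp_ip hu hv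

lemma g_K (a b : Fin 3) : HasDerivWithinAt (fun s => g s p.x (p.e a) (p.e b))
    (-2 * gev h hI hH p ((gfl h hI hH).K a b)) I p.t := by
  rw [gev_k, ((atl h hI hH).hom _).K]; exact fp_K a b

lemma g_Dw_M (k : ℕ) (w : Fin k → Fin 3) (a b : Fin 3) :
    gev h hI hH p ((gfl h hI hH).Dw (List.ofFn w) ((gfl h hI hH).M a b)) =
      mm (g p.t) p.x p.e k w a b := by
  rw [gev_k, ((atl h hI hH).hom _).Dw, ((atl h hI hH).hom _).M]; exact fp_Dw_M k w a b

lemma g_M (c d : Fin 3) : gev h hI hH p ((gfl h hI hH).M c d) =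
    Rm (g p.t) 0 p.x ![p.e (c + 1), p.e (c + 2), p.e (d + 2), p.e (d + 1)] := by
  rw [gev_k, ((atl h hI hH).hom _).M]; exact fp_M c d

lemma g_Ric (a b : Fin 3) :
    gev h hI hH p ((gfl h hI hH).Ric a b) = Ric (g p.t) p.x (p.e a) (p.e b) := by
  rw [gev_k, ((atl h hI hH).hom _).Ric]; exact fp_Ric a b

lemma g_S : 2 * gev h hI hH p (gfl h hI hH).S = Sc (g p.t) p.x := by
  rw [gev_k, ((atl h hI hH).hom _).S]; exact fp_S

lemma g_N (k : ℕ) : 4 * gev h hI hH p ((gfl h hI hH).N k) = NN (g p.t) k p.x := by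
  rw [gev_k, ((atl h hI hH).hom _).N]; exact fp_N k

omit [IsManifold 𝓘(ℝ, E3) ∞ M] in
/-- there are frames over every point -/
lemma exists_fp (h : Fam g I U) {s : ℝ} (hs : s ∈ I) {y : M} (hy : y ∈ U) :
    ∃ p : FP g I U, p.t = s ∧ p.x = y :=
  ⟨⟨s, y, _, hs, hy, fr0_on (h.symm s hs y hy) (h.pos s hs y hy)⟩, rfl, rfl⟩

variable (h hI hH) in
/-- the global model on a closed manifold -/
def gmod (hc : IsCompact U) : Mod g I U where
  A := GA h hI hH
  c := gfl h hI hH
  G := Atl.gm (atl_cpt h hI hH hc)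
  tm _ := rfl
  K := g_K
  sc u hu := ⟨gs h hI hH u hu, inv_gs hu, fun p => ⟨rfl, gs_Dt p hu, gs_D p hu, gs_hess p hu⟩⟩
  rm := g_Dw_M
  ric := g_Ric
  S := g_S

theorem model : MODEL := fun _ _ _ _ _ _ _ h hI hc hH => ⟨gmod h hI hH hc⟩

end Vale.Agent.P216GM
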