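import Vale.Agent.P216GM.Chg
import Vale.Agent.P216RD.GM

/-! # Gluing of local frame rings along an atlas -/

open Set Filter Topology
open scoped ContDiff

set_option linter.unusedSimpArgs false
set_option maxSynthPendingDepth 3

noncomputable section

namespace Vale.Agent.P216GM

open Vale.Agent.P216R hiding RF
open Vale.Agent.P216D Vale.Agent.P216D.Loc

/-- morphisms of frame calculi -/
structure Hom {A B : Type*} [CommRing A] [Algebra ℝ A] [CommRing B] [Algebra ℝ B] (c : Fl A)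
    (d : Fl B) (φ : A →ₐ[ℝ] B) : Prop where
  D : ∀ a x, φ (c.D a x) = d.D a (φ x)
  V : ∀ a x, φ (c.V a x) = d.V a (φ x)
  Dt : ∀ x, φ (c.Dt x) = d.Dt (φ x)
  M : ∀ a b, φ (c.M a b) = d.M a b
  K : ∀ a b, φ (c.K a b) = d.K a b

namespace Hom

variable {A B : Type*} [CommRing A] [Algebra ℝ A] [CommRing B] [Algebra ℝ B] {c : Fl A}
  {d : Fl B} {φ : A →ₐ[ℝ] B} (h : Hom c d φ)
include h

lemma S : φ c.S = d.S := by simp only [Fr.S, map_add, h.M]

lemma Ric (a b : Fin 3) : φ (c.Ric a b) = d.Ric a b := by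
  simp only [Fr.Ric, map_sub, map_zsmul, h.S, h.M]

lemma Lap (x : A) : φ (c.Lap x) = d.Lap (φ x) := by simp only [Fr.Lap, map_sum, h.D]

lemma ip (x y : A) : φ (c.ip x y) = d.ip (φ x) (φ y) := by
  simp only [Fr.ip, map_sum, map_mul, h.D]

lemma H (x : A) : φ (c.H x) = d.H (φ x) := by simp only [Fl.H, map_sub, h.Dt, h.Lap]

lemma Dw (w : List (Fin 3)) (x : A) : φ (c.Dw w x) = d.Dw w (φ x) := by
  induction w with
  | nil => rfl
  | cons a w ih => rw [Fr.Dw_cons, Fr.Dw_cons, h.D, ih]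

lemma Qf (k : ℕ) (x y : A) : φ (c.Qf k x y) = d.Qf k (φ x) (φ y) := by
  simp only [Fr.Qf, map_sum, map_mul, h.Dw]

lemma N (k : ℕ) : φ (c.N k) = d.N k := by simp only [Fr.N_eq, map_sum, h.Qf, h.M]

end Hom

lemma DDc {A : Type*} [CommRing A] [Algebra ℝ A] (c : Fr A) (a : Fin 3) (x : A) :
    c.D (a + 1) (c.D (a + 2) x) = c.D (a + 2) (c.D (a + 1) x) + ∑ d, c.M a d * c.V d x := by
  rw [c.DD]
  revert a
  refine all3 ?_ ?_ ?_ <;> simp [Fin.sum_univ_three]

/-- an atlas of local frame models -/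
structure Atl (P ι : Type) (I : Set ℝ) where
  /-- the local models -/
  L : ι → Loc
  /-- the parametrisations -/
  j : ∀ i, (L i).O → P
  /-- the preferred model at a point -/
  c : P → ι
  /-- the point in its preferred model -/
  k : ∀ p, (L (c p)).O
  /-- the time -/
  τ : P → ℝ
  hI : ∀ i, (L i).I = I
  jk : ∀ p, j (c p) (k p) = p
  tj : ∀ i q, τ (j i q) = t q
  tr : ∀ {i i'} (q : (L i).O) (r : (L i').O), j i q = j i' r → ∀ (f : P → ℝ) v,
    Rep (L i').R (fun z => f (j i' z)) r v →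
      ∃ u, Rep (L i).R (fun z => f (j i z)) q u ∧ Agr q u r v
  germ : ∀ p (l : FF →L[ℝ] ℝ), ∃ f : P → ℝ,
    (∀ p', ∃ i q u, j i q = p' ∧ Rep (L i).R (fun z => f (j i z)) q u) ∧
      ∀ᶠ q in 𝓝 (k p), f (j _ q) = l q

namespace Atl

variable {P ι : Type} {I : Set ℝ} (α : Atl P ι I)

/-- the functions that are smooth in every model -/
def Sm : Subalgebra ℝ (P → ℝ) where
  carrier := {f | ∀ i, (fun z => f (α.j i z)) ∈ P216D.Sm (α.L i).R}
  mul_mem' h k i := mul_mem (h i) (k i)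
  add_mem' h k i := add_mem (h i) (k i)
  algebraMap_mem' c _ := Subalgebra.algebraMap_mem _ c

/-- the global ring -/
abbrev A : Type := α.Sm

/-- evaluation -/
def ev (p : P) : α.A →ₐ[ℝ] ℝ := (Pi.evalAlgHom ℝ (fun _ : P => ℝ) p).comp α.Sm.val

/-- restriction to a model -/
def res (i : ι) : α.A →ₐ[ℝ] (α.L i).A where
  toFun f := ⟨fun z => f.1 (α.j i z), f.2 i⟩
  map_one' := rfl
  map_mul' _ _ := rfl
  map_zero' := rfl
  map_add' _ _ := rfl
  commutes' _ := rfl

variable {α}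

lemma ev_res {i : ι} (q : (α.L i).O) (f : α.A) :
    P216D.ev q (α.res i f) = α.ev (α.j i q) f := rfl

lemma ev_k (p : P) (f : α.A) : α.ev p f = P216D.ev (α.k p) (α.res _ f) := by rw [ev_res, α.jk]

lemma ext {f g : α.A} (h : ∀ p, α.ev p f = α.ev p g) : f = g := Subtype.ext (funext h)

lemma ext_res {f g : α.A} (h : ∀ i, α.res i f = α.res i g) : f = g :=
  ext fun p => by rw [ev_k, ev_k, h]

lemma mem_of {f : P → ℝ} (h : ∀ p, ∃ i q u, α.j i q = p ∧ Rep (α.L i).R (fun z => f (α.j i z)) q u) :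
    f ∈ α.Sm := fun i q => by
  obtain ⟨i', r, v, e, hv⟩ := h (α.j i q)
  obtain ⟨u, hu, -⟩ := α.tr q r e.symm f v hv
  exact ⟨u, hu⟩

/-- a function that is given by a smooth function in each model -/
def mk' (f : P → ℝ) (y : ∀ i, (α.L i).A) (h : ∀ i q, f (α.j i q) = P216D.ev q (y i)) : α.A :=
  ⟨f, fun i => by rw [funext (h i)]; exact (y i).2⟩

lemma ev_mk' (f : P → ℝ) (y : ∀ i, (α.L i).A) (h) (p : P) : α.ev p (mk' f y h) = f p := rfl

lemma res_mk' (f : P → ℝ) (y : ∀ i, (α.L i).A) (h) (i : ι) : α.res i (mk' f y h) = y i :=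
  Sm.ext (h i)

/-- compatible families -/
def Cp (y : ∀ i, (α.L i).A) : Prop :=
  ∀ i i' q r, α.j i q = α.j i' r → P216D.ev q (y i) = P216D.ev r (y i')

/-- gluing of a compatible family -/
def glue (y : ∀ i, (α.L i).A) (h : Cp y) : α.A :=
  mk' (fun p => P216D.ev (α.k p) (y _)) y fun _ _ => h _ _ _ _ (α.jk _)

lemma res_glue (y : ∀ i, (α.L i).A) (h : Cp y) (i : ι) : α.res i (glue y h) = y i := res_mk' _ _ _ _

/-- gluing of derivations -/
def gd (X : ∀ i, Derivation ℝ (α.L i).A (α.L i).A) (h : ∀ f, Cp fun i => X i (α.res i f)) :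
    Derivation ℝ α.A α.A :=
  Derivation.mk'
    { toFun := fun f => glue _ (h f)
      map_add' := fun f g => ext_res fun i => by simp only [res_glue, map_add]
      map_smul' := fun c f => ext_res fun i => by
        simp only [res_glue, map_smul, Derivation.map_smul, RingHom.id_apply] }
    fun f g => ext_res fun i => by
      simp only [LinearMap.coe_mk, AddHom.coe_mk, res_glue, map_mul, map_add, smul_eq_mul, der_mul]

lemma res_gd (X : ∀ i, Derivation ℝ (α.L i).A (α.L i).A) (h) (i : ι) (f : α.A) :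
    α.res i (gd X h f) = X i (α.res i f) := res_glue _ (h f) i

lemma cp (f : α.A) : (∀ a, Cp fun i => (α.L i).fr.D a (α.res i f)) ∧
    (∀ a, Cp fun i => (α.L i).fr.V a (α.res i f)) ∧ Cp fun i => (α.L i).fl.Dt (α.res i f) := by
  refine ⟨fun a i i' q r e => ?_, fun a i i' q r e => ?_, fun i i' q r e => ?_⟩ <;>
    obtain ⟨v, hv⟩ := Sm.rep (α.res i' f) r <;> obtain ⟨u, hu, h⟩ := α.tr q r e f.1 v hv
  · rw [ev_D a (f := α.res i f) hu, ev_D a hv, h.D]
  · rw [ev_V a (f := α.res i f) hu, ev_V a hv, h.V]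
  · rw [ev_Dt (f := α.res i f) hu, ev_Dt hv, h.T]

variable (α)

/-- horizontal fields -/
def D (a : Fin 3) : Derivation ℝ α.A α.A := gd _ fun f => (cp f).1 a

/-- vertical fields -/
def V (a : Fin 3) : Derivation ℝ α.A α.A := gd _ fun f => (cp f).2.1 a

/-- time derivative -/
def Dt : Derivation ℝ α.A α.A := gd _ fun f => (cp f).2.2

variable {α}

lemma res_D (i : ι) (a : Fin 3) (f : α.A) : α.res i (α.D a f) = (α.L i).fr.D a (α.res i f) :=
  res_gd _ _ _ _

lemma res_V (i : ι) (a : Fin 3) (f : α.A) : α.res i (α.V a f) = (α.L i).fr.V a (α.res i f) :=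
  res_gd _ _ _ _

lemma res_Dt (i : ι) (f : α.A) : α.res i (α.Dt f) = (α.L i).fl.Dt (α.res i f) := res_gd _ _ _ _

lemma ind (p : P) {f h : Fin 3 → ℝ}
    (H : ∀ y : α.A, ∑ a, f a * α.ev p (α.D a y) + ∑ a, h a * α.ev p (α.V a y) = 0) (a : Fin 3) :
    f a = 0 ∧ h a = 0 := by
  refine indp (α.k p) (fun l => ?_) a
  obtain ⟨y, h1, h2⟩ := α.germ p l
  have h3 : Rep _ (α.res _ ⟨y, mem_of h1⟩).1 (α.k p) l := ⟨l.contDiff.contDiffWithinAt, h2⟩
  simpa only [ev_k p, res_D, res_V, fun a => ev_D a h3, fun a => ev_V a h3,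
    l.fderivWithin (uds (w_mem _))] using H ⟨y, mem_of h1⟩

lemma cp_M (a b : Fin 3) : Cp fun i => (α.L i).fr.M a b := fun i i' q r e => by
  refine sub_eq_zero.1 (ind (α := α) (α.j i q) (f := 0) (h := fun b => P216D.ev q ((α.L i).fr.M a b) -
    P216D.ev r ((α.L i').fr.M a b)) (fun y => ?_) b).2
  have h1 := congrArg (P216D.ev q) (DDc (α.L i).fr a (α.res i y))
  have h2 := congrArg (P216D.ev r) (DDc (α.L i').fr a (α.res i' y))
  simp only [← res_D, ← res_V, map_add, map_sum, map_mul, ev_res, ← e] at h1 h2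
  simp only [Pi.zero_apply, zero_mul, Finset.sum_const_zero, sub_mul, Finset.sum_sub_distrib]
  linarith

lemma cp_KT (a b : Fin 3) : (Cp fun i => (α.L i).fl.K a b) ∧ Cp fun i => (α.L i).fl.T a b := by
  have : ∀ i i' q r, α.j i q = α.j i' r →
      P216D.ev q ((α.L i).fl.K a b) - P216D.ev r ((α.L i').fl.K a b) = 0 ∧
      P216D.ev q ((α.L i).fl.T a b) - P216D.ev r ((α.L i').fl.T a b) = 0 := fun i i' q r e => by
    refine ind (α := α) (α.j i q) (f := fun b => P216D.ev q ((α.L i).fl.K a b) -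
      P216D.ev r ((α.L i').fl.K a b)) (h := fun b => P216D.ev q ((α.L i).fl.T a b) -
      P216D.ev r ((α.L i').fl.T a b)) (fun y => ?_) b
    have h1 := congrArg (P216D.ev q) ((α.L i).fl.tD a (α.res i y))
    have h2 := congrArg (P216D.ev r) ((α.L i').fl.tD a (α.res i' y))
    simp only [fl_toFr, ← res_D, ← res_V, ← res_Dt, map_add, map_sum, map_mul, ev_res,
      ← e] at h1 h2
    simp only [sub_mul, Finset.sum_sub_distrib]
    linarith
  exact ⟨fun i i' q r e => sub_eq_zero.1 (this i i' q r e).1,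
    fun i i' q r e => sub_eq_zero.1 (this i i' q r e).2⟩

variable (α)

/-- the global frame calculus -/
def fl : Fl α.A where
  D := α.D
  V := α.V
  M a b := glue _ (cp_M a b)
  DD a b x := ext_res fun i => by
    simp only [res_D, res_V, res_glue, map_add, map_sum, map_mul, map_zsmul]
    exact (α.L i).fr.DD a b _
  VD a b x := ext_res fun i => by
    simp only [res_D, res_V, map_add, map_sum, map_zsmul]
    exact (α.L i).fr.VD a b _
  VV a b x := ext_res fun i => by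
    simp only [res_V, map_add, map_sum, map_zsmul]
    exact (α.L i).fr.VV a b _
  ind f h H a := by
    have := fun p => ind p (f := fun a => α.ev p (f a)) (h := fun a => α.ev p (h a)) (fun y => by
      simpa only [map_add, map_sum, map_mul, map_zero] using congrArg (α.ev p) (H y)) a
    exact ⟨ext fun p => (this p).1, ext fun p => (this p).2⟩
  Dt := α.Dt
  K a b := glue _ (cp_KT a b).1
  T a b := glue _ (cp_KT a b).2
  K_symm a b := ext_res fun i => by rw [res_glue, res_glue, Fl.K_symm]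
  tD a x := ext_res fun i => by
    simp only [res_D, res_V, res_Dt, res_glue, map_add, map_sum, map_mul]
    exact (α.L i).fl.tD a _
  tV a x := ext_res fun i => by
    simp only [res_V, res_Dt]
    exact (α.L i).fl.tV a _

lemma hom (i : ι) : Hom α.fl (α.L i).fl (α.res i) :=
  ⟨res_D i, res_V i, res_Dt i, fun a b => res_glue _ (cp_M a b) i,
    fun a b => res_glue _ (cp_KT a b).1 i⟩

/-- the global calculus of a Ricci flow -/
def rf (h : ∀ i, P216R.RF (α.L i).g (α.L i).I (α.L i).U) : RF α.A where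
  toFl := α.fl
  ric a b := ext_res fun i => by rw [(α.hom i).K, (α.hom i).Ric]; exact (Loc.rf (h i)).ric a b

/-- the time -/
def tm : α.A := mk' α.τ (fun i => (α.L i).time') α.tj

lemma res_tm (i : ι) : α.res i α.tm = (α.L i).time' := res_mk' _ _ _ _

variable {α}

lemma τ_k (p : P) : t (α.k p) = α.τ p := by rw [← α.tj, α.jk]

lemma evD (p : P) (a : Fin 3) (f : α.A) :
    α.ev p (α.fl.D a f) = P216D.ev (α.k p) ((α.L _).fr.D a (α.res _ f)) :=
  (ev_k _ _).trans (congrArg _ (res_D _ _ _))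

lemma evV (p : P) (a : Fin 3) (f : α.A) :
    α.ev p (α.fl.V a f) = P216D.ev (α.k p) ((α.L _).fr.V a (α.res _ f)) :=
  (ev_k _ _).trans (congrArg _ (res_V _ _ _))

lemma evT (p : P) (f : α.A) :
    α.ev p (α.fl.Dt f) = P216D.ev (α.k p) ((α.L _).fl.Dt (α.res _ f)) :=
  (ev_k _ _).trans (congrArg _ (res_Dt _ _))

lemma comp (h : ℝ → ℝ) (x : α.A) (hh : ∀ p, ContDiffAt ℝ ∞ h (α.ev p x)) : ∃ y : α.A, ∀ p,
    α.ev p y = h (α.ev p x) ∧
    (∀ a, α.ev p (α.fl.D a y) = deriv h (α.ev p x) * α.ev p (α.fl.D a x)) ∧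
    (∀ a, α.ev p (α.fl.V a y) = deriv h (α.ev p x) * α.ev p (α.fl.V a x)) ∧
    α.ev p (α.fl.Dt y) = deriv h (α.ev p x) * α.ev p (α.fl.Dt x) := by
  obtain ⟨y, h1, h2⟩ : ∃ y : α.A, (∀ p, α.ev p y = h (α.ev p x)) ∧
      ∀ i, α.res i y = Sm.comp h (α.res i x) fun q => hh (α.j i q) :=
    ⟨mk' (fun p => h (α.ev p x)) (fun i => Sm.comp h (α.res i x) fun q => hh (α.j i q))
      fun _ _ => rfl, fun _ => rfl, fun _ => res_mk' _ _ _ _⟩
  refine ⟨y, fun p => ⟨h1 p, fun a => ?_, fun a => ?_, ?_⟩⟩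
  · rw [evD, evD, ev_k p x, h2]
    exact ev_der_comp ((α.L _).tanD a) _ _ _ _
  · rw [evV, evV, ev_k p x, h2]
    exact ev_der_comp ((α.L _).tanV a) _ _ _ _
  · rw [evT, evT, ev_k p x, h2]
    exact ev_der_comp (α.L _).tanT _ _ _ _

lemma min_loc {x : α.A} {p : P} (h : ∀ q, α.τ q = α.τ p → α.ev p x ≤ α.ev q x) :
    ∀ᶠ q : (α.L (α.c p)).O in 𝓝 (α.k p), q.1.1.1 = (α.k p).1.1.1 →
      P216D.ev (α.k p) (α.res _ x) ≤ P216D.ev q (α.res _ x) := .of_forall fun q hq => by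
  rw [← ev_k]
  exact h _ ((α.tj _ q).trans (hq.trans (τ_k p)))

/-- the second order test at a minimum among the frames of the same time -/
theorem min_psd {x : α.A} {p : P} (h : ∀ q, α.τ q = α.τ p → α.ev p x ≤ α.ev q x) :
    (∀ a, α.ev p (α.fl.D a x) = 0) ∧ (∀ a, α.ev p (α.fl.V a x) = 0) ∧
      ∀ c : Fin 3 ⊕ Fin 3 → ℝ, 0 ≤ ∑ i, ∑ j, c i * c j *
        α.ev p (Sum.elim α.fl.D α.fl.V i (Sum.elim α.fl.D α.fl.V j x)) := by
  have e : ∀ i y, α.res (α.c p) (Sum.elim α.fl.D α.fl.V i y) =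
      Sum.elim (α.L _).fr.D (α.L _).fr.V i (α.res (α.c p) y) := fun i y => by
    cases i
    exacts [res_D _ _ _, res_V _ _ _]
  have h1 := Loc.min_psd (min_loc h)
  refine ⟨fun a => ?_, fun a => ?_, fun c => ?_⟩
  · exact (evD _ _ _).trans (h1.1 a)
  · exact (evV _ _ _).trans (h1.2.1 a)
  · simp only [ev_k p, e]; exact h1.2.2 c

theorem min_lap {x : α.A} {p : P} (h : ∀ q, α.τ q = α.τ p → α.ev p x ≤ α.ev q x) :
    0 ≤ α.ev p (α.fl.Lap x) := by
  rw [ev_k, (α.hom _).Lap]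
  exact Loc.min_lap (min_loc h)

theorem min_time {x : α.A} {p : P} {s : ℝ} (hs : s < α.τ p) (hI : Icc s (α.τ p) ⊆ I)
    (h : ∀ q, α.τ q ∈ Icc s (α.τ p) → α.ev p x ≤ α.ev q x) : α.ev p (α.fl.Dt x) ≤ 0 := by
  rw [evT]
  rw [← τ_k p] at hs hI h
  refine Loc.min_time ?_ ?_
  · rw [α.hI]
    exact mem_of_superset (Icc_mem_nhdsLT hs) hI
  · filter_upwards [(continuous_fst.comp (continuous_fst.comp continuous_subtype_val)
      ).continuousAt.eventually (lt_mem_nhds (a := s) hs)] with q a b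
    rw [← ev_k]
    exact h _ (by rw [α.tj]; exact ⟨a.le, b.le⟩)

variable (α) in
/-- the frames over compact sets of times are covered by finitely many compact pieces -/
def Cpt : Prop := ∀ s r, Icc s r ⊆ I → ∃ (T : Finset ι) (K : ∀ i, Set (α.L i).O),
  (∀ i ∈ T, IsCompact (K i) ∧ ∀ q ∈ K i, t q ∈ Icc s r) ∧
    ∀ p, α.τ p ∈ Icc s r → ∃ i ∈ T, ∃ q ∈ K i, α.j i q = p

lemma Cpt.max (h : α.Cpt) (x : α.A) {s r : ℝ} (hI : Icc s r ⊆ I) {q : P} (hq : α.τ q ∈ Icc s r) :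
    ∃ p, α.τ p ∈ Icc s r ∧ ∀ q, α.τ q ∈ Icc s r → α.ev q x ≤ α.ev p x := by
  obtain ⟨T, K, h1, h2⟩ := h s r hI
  have h3 : ∀ q, α.τ q ∈ Icc s r →
      α.ev q x ∈ ⋃ i ∈ T, (fun z => P216D.ev z (α.res i x)) '' K i := fun q hq => by
    obtain ⟨i, hi, z, hz, rfl⟩ := h2 q hq
    exact mem_iUnion₂.2 ⟨i, hi, z, hz, rfl⟩
  obtain ⟨m, h4, h5⟩ := (T.isCompact_biUnion fun i hi => (h1 i hi).1.image
    (Sm.cont (α.res i x))).exists_isGreatest ⟨_, h3 q hq⟩
  obtain ⟨i, hi, z, hz, rfl⟩ := mem_iUnion₂.1 h4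
  exact ⟨α.j i z, by rw [α.tj]; exact (h1 i hi).2 z hz, fun q hq => h5 (h3 q hq)⟩

/-- the global model of a compact atlas -/
def gm (h : α.Cpt) : P216RD.GM α.fl P I where
  ev := α.ev
  t := α.tm
  mem p := (α.hI (α.c p)).subset (show α.τ p ∈ _ from τ_k (α := α) p ▸ t_mem (α.k p))
  ext x hx := ext hx
  tD a := ext_res fun i => by rw [(α.hom i).D, res_tm, map_zero]; exact D_time a
  tV a := ext_res fun i => by rw [(α.hom i).V, res_tm, map_zero]; exact V_time a
  tT := ext_res fun i => by rw [(α.hom i).Dt, res_tm, map_one]; exact Dt_time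
  comp := comp
  mp x s r q hI hq := by
    obtain ⟨p, h1, h2⟩ := h.max x hI hq
    have h3 : ∀ q, α.τ q ∈ Icc s r → α.ev p (-x) ≤ α.ev q (-x) := fun q hq => by
      rw [map_neg, map_neg]; exact neg_le_neg (h2 q hq)
    have h4 : ∀ q, α.τ q = α.τ p → α.ev p (-x) ≤ α.ev q (-x) := fun q e => h3 q (e ▸ h1)
    refine ⟨p, h1, h2, fun a => by simpa using (min_psd h4).1 a, fun hs => ?_⟩
    have h5 := min_lap h4
    have h6 := min_time hs ((Icc_subset_Icc_right h1.2).trans hI)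
      fun q hq => h3 q (Icc_subset_Icc_right h1.2 hq)
    simp only [Fr.Lap, map_neg, map_sum, Finset.sum_neg_distrib] at h5 h6
    simp only [Fl.H, Fr.Lap, map_sub, map_sum]
    linarith

end Atl

end Vale.Agent.P216GM
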