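import Vale.Agent.P216D.ModRG

/-! # Changes of coordinates on the space of frames, and gluing of local frame rings -/

open Set Filter Topology
open scoped ContDiff

set_option linter.unusedSimpArgs false
set_option maxSynthPendingDepth 3

noncomputable section

namespace Vale.Agent.P216GM

open Vale.Agent.P216R hiding RF
open Vale.Agent.P216D Vale.Agent.P216D.Loc

/-- the lift of a map to frames -/
def lf (τ : E3 → E3) (q : FF) : FF := ((q.1.1, τ q.1.2), fun a => fderiv ℝ τ q.1.2 (q.2 a))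

variable {τ : E3 → E3} {L L' : Loc}

lemma lf_sm {q : FF} (h : ContDiffAt ℝ ∞ τ q.1.2) : ContDiffAt ℝ ∞ (lf τ) q := by
  have h0 : ContDiffAt ℝ ∞ (fun q : FF => q.1.2) q := by fun_prop
  exact (ContDiffAt.prodMk (by fun_prop) (ContDiffAt.comp q (g := τ) h h0)).prodMk
    (contDiffAt_pi.2 fun a => (ContDiffAt.comp q (g := fderiv ℝ τ)
      (h.fderiv_right (m := ∞) (by simp)) h0).clm_apply (by fun_prop))

lemma lf_fderiv {q : FF} (h : ContDiffAt ℝ ∞ τ q.1.2) (Z : FF) : fderiv ℝ (lf τ) q Z =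
    ((Z.1.1, fderiv ℝ τ q.1.2 Z.1.2), fun a =>
      fderiv ℝ (fderiv ℝ τ) q.1.2 Z.1.2 (q.2 a) + fderiv ℝ τ q.1.2 (Z.2 a)) := by
  have d0 := (h.differentiableAt (by simp)).hasFDerivAt
  have d1 := ((h.fderiv_right (m := ∞) (by simp)).differentiableAt (by simp)).hasFDerivAt
  have f1 := (hasFDerivAt_fst (𝕜 := ℝ) (p := q)).snd
  have f0 := (hasFDerivAt_fst (𝕜 := ℝ) (p := q)).fst
  have d2 : HasFDerivAt (lf τ) _ q := (f0.prodMk (d0.comp q f1)).prodMk
    (hasFDerivAt_pi.2 fun a => (d1.comp q f1).clm_apply (eL a).hasFDerivAt)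
  rw [d2.fderiv]
  refine Prod.ext rfl (funext fun a => ?_)
  simp [add_comm]

/-- `τ` is an isometry near `y` for all times -/
structure TI (L L' : Loc) (τ : E3 → E3) (y : E3) : Prop where
  sub : L.I ⊆ L'.I
  ev : ∀ᶠ z in 𝓝 y, τ z ∈ L'.U ∧ ContDiffAt ℝ ∞ τ z ∧ ∀ s ∈ L.I, L.g s z = comap τ (L'.g s) z

namespace TI

variable {q : L.O}

lemma cd {y : E3} (h : TI L L' τ y) : ContDiffAt ℝ ∞ τ y := h.ev.self_of_nhds.2.1

lemma iso (h : TI L L' τ (x q)) {s : ℝ} (hs : s ∈ L.I) : Iso (L.g s) (L'.g s) τ (x q) :=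
  ⟨⟨_, _, met hs, met (h.sub hs), x_mem q, h.ev.self_of_nhds.1⟩, h.ev.mono fun _ a => a.2.1,
    h.ev.mono fun _ a => a.2.2 s hs⟩

lemma mem (h : TI L L' τ (x q)) : lf τ q ∈ L'.O :=
  ⟨⟨h.sub (t_mem q), h.ev.self_of_nhds.1⟩, fun a b =>
    ((h.iso (t_mem q)).iso'.self_of_nhds _ _).trans (on_g q a b)⟩

lemma near (h : TI L L' τ (x q)) : ∀ᶠ r : L.O in 𝓝 q, TI L L' τ (x r) :=
  ((continuous_snd.comp (continuous_fst.comp continuous_subtype_val)).continuousAt.eventually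
    h.ev.eventually_nhds).mono fun _ a => ⟨h.sub, a⟩

lemma XD (h : TI L L' τ (x q)) (a : Fin 3) :
    fderiv ℝ (lf τ) q (L.XD a q) = L'.XD a (lf τ q) := by
  rw [lf_fderiv h.cd]
  refine Prod.ext rfl (funext fun c => ?_)
  have := (h.iso (t_mem q)).chris (e q a) (e q c)
  simp only [Loc.XD, Ga_eq (w_mem q), Ga_eq h.mem.1, map_neg]
  rw [this]
  simp [lf]

lemma XV (h : TI L L' τ (x q)) (a : Fin 3) : fderiv ℝ (lf τ) q (XV a q) = XV a (lf τ q) := by
  rw [lf_fderiv h.cd]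
  refine Prod.ext (by simp [P216D.XV]) (funext fun c => ?_)
  simp [P216D.XV, lf]

lemma XT (h : TI L L' τ (x q)) : fderiv ℝ (lf τ) q (L.XT q) = L'.XT (lf τ q) := by
  rw [lf_fderiv h.cd]
  refine Prod.ext (by simp [Loc.XT]) (funext fun c => ?_)
  have i := h.iso (t_mem q)
  simp only [Loc.XT, map_zero, _root_.zero_apply, zero_add]
  refine ext_of_pos i.pos fun z => ?_
  obtain ⟨z, rfl⟩ := surj_of_inj i.inj z
  have h1 := ((has_K ⟨_, h.mem⟩ (fderiv ℝ τ (x q) (e q c)) (fderiv ℝ τ (x q) z)).mono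
    h.sub).congr_of_mem (f₁ := fun s => L.g s (x q) (e q c) z)
    (fun s hs => ((h.iso hs).iso'.self_of_nhds _ _).symm) (t_mem q)
  have h2 := (L.iv.ud _ (t_mem q)).eq_deriv _ (has_K q (e q c) z) h1
  rw [i.iso'.self_of_nhds]
  exact mul_left_cancel₀ (by norm_num) h2

lemma tend (h : TI L L' τ (x q)) : Tendsto (lf τ) (𝓝[L.S] q) (𝓝[L'.S] (lf τ q)) := by
  refine tendsto_nhdsWithin_iff.2 ⟨(lf_sm h.cd).continuousAt.tendsto.mono_left nhdsWithin_le_nhds,
    ?_⟩
  filter_upwards [self_mem_nhdsWithin, nhdsWithin_le_nhds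
    ((continuous_snd.comp continuous_fst).continuousAt.eventually h.ev)] with r a b
  exact ⟨⟨h.sub a.1.1, b.1⟩, trivial⟩

end TI

/-- the derivatives of `u` at `q` and of `v` at `r` along the basic fields agree -/
structure Agr {L L' : Loc} (q : L.O) (u : FF → ℝ) (r : L'.O) (v : FF → ℝ) : Prop where
  D : ∀ a, fderivWithin ℝ u L.S q (L.XD a q) = fderivWithin ℝ v L'.S r (L'.XD a r)
  V : ∀ a, fderivWithin ℝ u L.S q (XV a q) = fderivWithin ℝ v L'.S r (XV a r)
  T : fderivWithin ℝ u L.S q (L.XT q) = fderivWithin ℝ v L'.S r (L'.XT r)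

/-- transfer of representatives along a local isometry -/
lemma TI.rep {q : L.O} (h : TI L L' τ (x q)) {r : L'.O} (hr : (r : FF) = lf τ q) {f : L.O → ℝ}
    {f' : L'.O → ℝ} (hf : ∀ᶠ z : L.O in 𝓝 q, ∀ w : L'.O, (w : FF) = lf τ z → f z = f' w)
    {v : FF → ℝ} (hv : Rep L'.R f' r v) : Rep L.R f q (v ∘ lf τ) ∧ Agr q (v ∘ lf τ) r v := by
  have h1 := h.tend
  have h2 := hv.2
  have h3 := hv.1
  have h4 := hv.diff.hasFDerivWithinAt
  rw [nhds_subtype, eventually_comap] at h2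
  rw [hr] at h2 h3 h4
  have h5 := (HasFDerivWithinAt.comp_of_tendsto (q : FF) h4
    ((lf_sm h.cd).differentiableAt (by simp)).hasFDerivAt.hasFDerivWithinAt h1).fderivWithin
    (uds (w_mem q))
  refine ⟨⟨ContDiffWithinAt.comp_of_preimage_mem_nhdsWithin (q : FF) h3
    (lf_sm h.cd).contDiffWithinAt (h1 self_mem_nhdsWithin), ?_⟩, fun a => ?_, fun a => ?_, ?_⟩
  · filter_upwards [hf, h.near, ((lf_sm h.cd).continuousAt.tendsto.comp
      continuous_subtype_val.continuousAt).eventually h2] with z a b c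
    exact (a ⟨_, b.mem⟩ rfl).trans (c ⟨_, b.mem⟩ rfl)
  · rw [h5, hr, ← h.XD]; rfl
  · rw [h5, hr, ← h.XV]; rfl
  · rw [h5, hr, ← h.XT]; rfl

/-- the basic fields are independent at each frame -/
lemma indp (p : L.O) {f h : Fin 3 → ℝ}
    (H : ∀ l : FF →L[ℝ] ℝ, ∑ a, f a * l (L.XD a p) + ∑ a, h a * l (XV a p) = 0) (a : Fin 3) :
    f a = 0 ∧ h a = 0 := by
  have h1 : ∑ a, f a • L.XD a p + ∑ a, h a • XV a p = 0 :=
    SeparatingDual.eq_zero_of_forall_dual_eq_zero (R := ℝ) fun l => by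
      simpa only [map_add, map_sum, map_smul, smul_eq_mul] using H l
  have h2 : ∀ a, f a = 0 := fun a => by
    have := congrArg (fun z : FF => z.1.2) h1
    simp only [Loc.XD, XV, Prod.fst_add, Prod.snd_add, Prod.fst_sum, Prod.snd_sum, Prod.smul_fst,
      Prod.smul_snd, Prod.fst_zero, Prod.snd_zero, smul_zero, Finset.sum_const_zero,
      add_zero] at this
    rw [← p.2.2.sum_left f a, this]
    simp
  refine ⟨h2 a, ?_⟩
  have := congrArg (fun z : FF => L.G p.1.1 (z.2 (a + 1)) (p.1.2 (a + 2))) h1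
  simp only [h2, map_zero, zero_smul, Finset.sum_const_zero, zero_add, XV, Prod.snd_sum,
    Finset.sum_apply, Prod.smul_snd, Pi.smul_apply, map_sum, map_smul, _root_.sum_apply,
    _root_.smul_apply, p.2.2 _ (a + 2), Prod.snd_zero, Pi.zero_apply, _root_.zero_apply] at this
  revert a
  refine all3 ?_ ?_ ?_ <;> intro this <;> simpa [Fin.sum_univ_three] using this

end Vale.Agent.P216GM
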